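import Vale.Agent.P146.H522.Rot

/-!
P146, plan R2, the row Mis: the algebra. If `-c B ≤ P ≤ c B` as forms, `B` positive semidefinite,
then off the top direction of `B` the square of `P` is small in every positive semidefinite weight.
-/

open Matrix Vale.Agent.P146.H332 Vale.Agent.P146.H522

namespace Vale.Agent.P146.H364

set_option linter.unusedSectionVars false
set_option linter.unusedDecidableInType false

variable {m : Type} [Fintype m] [DecidableEq m]

/-- the bilinear form of a matrix -/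
def bf (M : Matrix m m ℝ) (v w : m → ℝ) : ℝ := v ⬝ᵥ (M *ᵥ w)

lemma bf_eq (M : Matrix m m ℝ) (v w : m → ℝ) : bf M v w = ∑ i, ∑ j, v i * M i j * w j := by
  unfold bf dotProduct mulVec dotProduct
  refine Finset.sum_congr rfl fun i _ => ?_
  rw [Finset.mul_sum]
  exact Finset.sum_congr rfl fun j _ => by ring

lemma bf_comm {M : Matrix m m ℝ} (hM : Mᵀ = M) (v w : m → ℝ) : bf M v w = bf M w v := by
  unfold bf
  rw [dotProduct_comm, ← vecMul_transpose, hM, ← dotProduct_mulVec]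

lemma bf_add_left (M : Matrix m m ℝ) (v v' w : m → ℝ) :
    bf M (v + v') w = bf M v w + bf M v' w := by
  unfold bf; rw [add_dotProduct]

lemma bf_add_right (M : Matrix m m ℝ) (v w w' : m → ℝ) :
    bf M v (w + w') = bf M v w + bf M v w' := by
  unfold bf; rw [mulVec_add, dotProduct_add]

lemma bf_smul_left (M : Matrix m m ℝ) (c : ℝ) (v w : m → ℝ) : bf M (c • v) w = c * bf M v w := by
  unfold bf; rw [smul_dotProduct, smul_eq_mul]

lemma bf_smul_right (M : Matrix m m ℝ) (c : ℝ) (v w : m → ℝ) :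
    bf M v (c • w) = c * bf M v w := by
  unfold bf; rw [mulVec_smul, dotProduct_smul, smul_eq_mul]

lemma psd_bf {M : Matrix m m ℝ} (h : Psd M) (v : m → ℝ) : 0 ≤ bf M v v := by
  rw [bf_eq]
  refine (h.2 v).trans (le_of_eq ?_)
  exact Finset.sum_congr rfl fun i _ => Finset.sum_congr rfl fun j _ => by ring

lemma psd_of_bf {M : Matrix m m ℝ} (hM : Mᵀ = M) (h : ∀ v, 0 ≤ bf M v v) : Psd M := by
  refine ⟨hM, fun v => ?_⟩
  refine (h v).trans (le_of_eq ?_)
  rw [bf_eq]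
  exact Finset.sum_congr rfl fun i _ => Finset.sum_congr rfl fun j _ => by ring

/-- Cauchy-Schwarz for a positive semidefinite form. -/
lemma bf_cs {M : Matrix m m ℝ} (h : Psd M) (v w : m → ℝ) :
    bf M v w ^ 2 ≤ bf M v v * bf M w w := by
  have h1 : ∀ t : ℝ, 0 ≤ bf M w w * (t * t) + (2 * bf M v w) * t + bf M v v := by
    intro t
    have h2 := psd_bf h (v + t • w)
    rw [bf_add_left, bf_add_right, bf_add_right, bf_smul_left, bf_smul_left, bf_smul_right,
      bf_smul_right, bf_comm h.1 w v] at h2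
    linarith
  have h3 := discrim_le_zero h1
  unfold discrim at h3
  nlinarith

/-- the length of a vector -/
lemma dot_self_nonneg (v : m → ℝ) : 0 ≤ v ⬝ᵥ v := by
  unfold dotProduct
  exact Finset.sum_nonneg fun i _ => mul_self_nonneg _

/-- `|T Q x|² ≤ μ x' Q x` if `T Q T ≤ μ`. -/
theorem tq_le {Q T : Matrix m m ℝ} (hQ : Psd Q) (hT : Tᵀ = T) {μ : ℝ}
    (h : ∀ y, bf Q (T *ᵥ y) (T *ᵥ y) ≤ μ * (y ⬝ᵥ y)) (x : m → ℝ) :
    (T *ᵥ (Q *ᵥ x)) ⬝ᵥ (T *ᵥ (Q *ᵥ x)) ≤ μ * bf Q x x := by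
  obtain ⟨y, hy⟩ : ∃ y, y = T *ᵥ (Q *ᵥ x) := ⟨_, rfl⟩
  rw [← hy]
  have h1 : y ⬝ᵥ y = bf Q (T *ᵥ y) x := by
    unfold bf
    nth_rewrite 2 [hy]
    rw [dotProduct_mulVec, ← mulVec_transpose, hT]
  have h2 := bf_cs hQ (T *ᵥ y) x
  rw [← h1] at h2
  have h3 := psd_bf hQ x
  have h4 := mul_le_mul_of_nonneg_right (h y) h3
  have h5 := dot_self_nonneg y
  rcases h5.eq_or_lt with h6 | h6
  · rw [← h6]
    -- the case `y = 0`: use the bound at `x` scaled
    by_contra hcon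
    push Not at hcon
    have h7 : bf Q x x ≠ 0 := by
      intro h8
      rw [h8, mul_zero] at hcon
      exact lt_irrefl _ hcon
    have h9 : 0 < bf Q x x := lt_of_le_of_ne h3 (Ne.symm h7)
    have h10 : μ < 0 := by
      by_contra h11
      push Not at h11
      exact absurd hcon (not_lt.2 (mul_nonneg h11 h9.le))
    have h12 := (psd_bf hQ (T *ᵥ x)).trans (h x)
    have h13 : x ⬝ᵥ x = 0 := by
      have := dot_self_nonneg x
      by_contra h14
      have h15 : 0 < x ⬝ᵥ x := lt_of_le_of_ne this (Ne.symm h14)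
      nlinarith
    have h16 : x = 0 := dotProduct_self_eq_zero.1 h13
    rw [h16] at h9
    unfold bf at h9
    simp at h9
  · have h7 : (y ⬝ᵥ y) * (y ⬝ᵥ y) ≤ (μ * bf Q x x) * (y ⬝ᵥ y) := by nlinarith
    exact le_of_mul_le_mul_right h7 h6

lemma sq_add_le (a b : m → ℝ) : (a + b) ⬝ᵥ (a + b) ≤ 2 * (a ⬝ᵥ a) + 2 * (b ⬝ᵥ b) := by
  unfold dotProduct
  rw [Finset.mul_sum, Finset.mul_sum, ← Finset.sum_add_distrib]
  refine Finset.sum_le_sum fun i _ => ?_
  simp only [Pi.add_apply]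
  nlinarith [sq_nonneg (a i - b i)]

/-- `|T P x|² ≤ 10 c² μ x' B x`. -/
theorem tp_le {B P T : Matrix m m ℝ} (hB : Psd B) (hP : Pᵀ = P) (hT : Tᵀ = T) {c μ : ℝ}
    (hc : 0 ≤ c) (h1 : ∀ v, -(c * bf B v v) ≤ bf P v v) (h2 : ∀ v, bf P v v ≤ c * bf B v v)
    (h : ∀ y, bf B (T *ᵥ y) (T *ᵥ y) ≤ μ * (y ⬝ᵥ y)) (x : m → ℝ) :
    (T *ᵥ (P *ᵥ x)) ⬝ᵥ (T *ᵥ (P *ᵥ x)) ≤ 10 * c ^ 2 * μ * bf B x x := by
  obtain ⟨Q, hQ⟩ : ∃ Q, Q = P + c • B := ⟨_, rfl⟩
  have hQe : ∀ v w, bf Q v w = bf P v w + c * bf B v w := by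
    intro v w
    rw [hQ]
    unfold bf
    rw [add_mulVec, dotProduct_add, smul_mulVec, dotProduct_smul, smul_eq_mul]
  have hQs : Qᵀ = Q := by rw [hQ, transpose_add, transpose_smul, hP, hB.1]
  have hQp : Psd Q := psd_of_bf hQs fun v => by rw [hQe]; linarith [h1 v]
  have hQ2 : ∀ v, bf Q v v ≤ 2 * c * bf B v v := fun v => by rw [hQe]; linarith [h2 v]
  have a1 := tq_le hQp hT (μ := 2 * c * μ) (fun y => (hQ2 _).trans (by
    have := mul_le_mul_of_nonneg_left (h y) (show (0:ℝ) ≤ 2 * c by linarith)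
    linarith)) x
  have a2 := tq_le hB hT h x
  have e : T *ᵥ (P *ᵥ x) = T *ᵥ (Q *ᵥ x) + (-c) • (T *ᵥ (B *ᵥ x)) := by
    rw [hQ, add_mulVec, mulVec_add, smul_mulVec, mulVec_smul, neg_smul]
    abel
  rw [e]
  refine (sq_add_le _ _).trans ?_
  have e2 : ((-c) • (T *ᵥ (B *ᵥ x))) ⬝ᵥ ((-c) • (T *ᵥ (B *ᵥ x))) =
      c ^ 2 * ((T *ᵥ (B *ᵥ x)) ⬝ᵥ (T *ᵥ (B *ᵥ x))) := by
    rw [smul_dotProduct, dotProduct_smul, smul_eq_mul, smul_eq_mul]
    ring
  rw [e2]
  -- the sign of `μ` matters only if `bf B x x > 0`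
  have b0 := psd_bf hB x
  have b1 := hQ2 x
  have b2 : 2 * c * μ * bf Q x x ≤ 4 * c ^ 2 * μ * bf B x x := by
    by_cases hμ : 0 ≤ μ
    · have := mul_le_mul_of_nonneg_left b1 (show 0 ≤ 2 * c * μ by positivity)
      calc _ ≤ _ := this
        _ = _ := by ring
    · push Not at hμ
      have h12 := (psd_bf hB (T *ᵥ x)).trans (h x)
      have h13 : x ⬝ᵥ x = 0 := by
        have := dot_self_nonneg x
        by_contra h14
        have h15 : 0 < x ⬝ᵥ x := lt_of_le_of_ne this (Ne.symm h14)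
        nlinarith
      have h16 : x = 0 := dotProduct_self_eq_zero.1 h13
      rw [h16]
      unfold bf
      simp
  have b3 := mul_le_mul_of_nonneg_left a2 (sq_nonneg c)
  nlinarith

/-- `tr (Y P T T P) ≤ 10 c² μ tr (Y B)` for `Y` positive semidefinite. -/
theorem tr_tp_le {B P T Y : Matrix m m ℝ} (hB : Psd B) (hP : Pᵀ = P) (hT : Tᵀ = T) (hY : Psd Y)
    {c μ : ℝ} (hc : 0 ≤ c) (h1 : ∀ v, -(c * bf B v v) ≤ bf P v v)
    (h2 : ∀ v, bf P v v ≤ c * bf B v v)
    (h : ∀ y, bf B (T *ᵥ y) (T *ᵥ y) ≤ μ * (y ⬝ᵥ y)) :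
    ip Y ((T * P)ᵀ * (T * P)) ≤ 10 * c ^ 2 * μ * ip Y B := by
  have hD : Psd ((10 * c ^ 2 * μ) • B - (T * P)ᵀ * (T * P)) := by
    refine psd_of_bf ?_ fun v => ?_
    · rw [transpose_sub, transpose_smul, hB.1, transpose_mul, transpose_transpose]
    · have e : bf ((10 * c ^ 2 * μ) • B - (T * P)ᵀ * (T * P)) v v =
          10 * c ^ 2 * μ * bf B v v - (T *ᵥ (P *ᵥ v)) ⬝ᵥ (T *ᵥ (P *ᵥ v)) := by
        unfold bf
        rw [sub_mulVec, dotProduct_sub, smul_mulVec, dotProduct_smul, smul_eq_mul,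
          ← mulVec_mulVec, dotProduct_mulVec v (T * P)ᵀ, vecMul_transpose, ← mulVec_mulVec]
      rw [e]
      have := tp_le hB hP hT hc h1 h2 h v
      linarith
  have := hY.sum_mul_nonneg hD
  have e : ∑ i, ∑ j, Y i j * ((10 * c ^ 2 * μ) • B - (T * P)ᵀ * (T * P)) i j =
      10 * c ^ 2 * μ * ip Y B - ip Y ((T * P)ᵀ * (T * P)) := by
    unfold ip
    simp only [Matrix.sub_apply, Matrix.smul_apply, smul_eq_mul, mul_sub, Finset.sum_sub_distrib,
      Finset.mul_sum]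
    congr 1
    exact Finset.sum_congr rfl fun i _ => Finset.sum_congr rfl fun j _ => by ring
  rw [e] at this
  linarith

/-- the form is bounded by the Frobenius norm -/
lemma bf_le_nf (M : Matrix m m ℝ) (v : m → ℝ) : bf M v v ≤ nf M * (v ⬝ᵥ v) := by
  have h1 := (abs_le.1 (ip_le_nf M (vecMulVec v v))).2
  have e1 : ip M (vecMulVec v v) = bf M v v := by
    rw [bf_eq]
    unfold ip
    exact Finset.sum_congr rfl fun i _ => Finset.sum_congr rfl fun j _ => by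
      rw [vecMulVec_apply]; ring
  have e2 : nf (vecMulVec v v) = v ⬝ᵥ v := by
    unfold nf
    have : fr (vecMulVec v v) = (v ⬝ᵥ v) ^ 2 := by
      unfold fr dotProduct
      rw [sq, Finset.sum_mul_sum]
      exact Finset.sum_congr rfl fun i _ => Finset.sum_congr rfl fun j _ => by
        rw [vecMulVec_apply]; ring
    rw [this, Real.sqrt_sq (dot_self_nonneg v)]
  rw [e1, e2] at h1
  exact h1

/-- the remainder `B - B² / |B|` -/
noncomputable def rem (B : Matrix m m ℝ) : Matrix m m ℝ := B - (1 / nf B) • (B * B)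

/-- `(1 - u) B (1 - u) ≤ |B - B²/|B||` with `u = B / |B|`. -/
theorem top_le {B : Matrix m m ℝ} (hB : Psd B) (h0 : 0 < nf B) (y : m → ℝ) :
    bf B ((1 - (1 / nf B) • B) *ᵥ y) ((1 - (1 / nf B) • B) *ᵥ y) ≤ nf (rem B) * (y ⬝ᵥ y) := by
  obtain ⟨a, ha⟩ : ∃ a, a = 1 / nf B := ⟨_, rfl⟩
  have ha0 : 0 < a := by rw [ha]; positivity
  rw [← ha]
  have hrem : rem B = B - a • (B * B) := by unfold rem; rw [ha]
  -- the vector `z = B y`
  obtain ⟨z, hz⟩ : ∃ z, z = B *ᵥ y := ⟨_, rfl⟩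
  have e1 : (1 - a • B) *ᵥ y = y - a • z := by
    rw [sub_mulVec, one_mulVec, smul_mulVec, hz]
  have e2 : bf B y y = y ⬝ᵥ z := by unfold bf; rw [hz]
  have e3 : bf B y z = z ⬝ᵥ z := by
    unfold bf
    rw [dotProduct_mulVec, ← mulVec_transpose, hB.1, ← hz]
  have e4 : bf B z y = z ⬝ᵥ z := by rw [bf_comm hB.1, e3]
  have e5 : bf (rem B) y y = y ⬝ᵥ z - a * (z ⬝ᵥ z) := by
    rw [hrem]
    unfold bf
    rw [sub_mulVec, dotProduct_sub, smul_mulVec, dotProduct_smul, smul_eq_mul, ← mulVec_mulVec,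
      ← hz, dotProduct_mulVec y B z, ← mulVec_transpose, hB.1, ← hz]
  have e6 : bf B (y - a • z) (y - a • z) = y ⬝ᵥ z - 2 * a * (z ⬝ᵥ z) + a ^ 2 * bf B z z := by
    have : y - a • z = y + (-a) • z := by rw [neg_smul, sub_eq_add_neg]
    rw [this, bf_add_left, bf_add_right, bf_add_right, bf_smul_left, bf_smul_left, bf_smul_right,
      bf_smul_right, e2, e3, e4]
    ring
  rw [e1, e6]
  have h1 := bf_le_nf (rem B) y
  rw [e5] at h1
  have h2 := bf_le_nf B z
  have h3 : a ^ 2 * bf B z z ≤ a * (z ⬝ᵥ z) := by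
    have h4 : a * bf B z z ≤ z ⬝ᵥ z := by
      rw [ha, one_div, inv_mul_le_iff₀ h0]
      exact h2
    calc a ^ 2 * bf B z z = a * (a * bf B z z) := by ring
      _ ≤ a * (z ⬝ᵥ z) := mul_le_mul_of_nonneg_left h4 ha0.le
  linarith

/-- **The row Mis, the algebra**: with `u = B / |B|` and `-c B ≤ P ≤ c B`,
`tr (Y P²) ≤ 2 tr (Y P u² P) + 20 c² |B - B²/|B|| tr (Y B)`. -/
theorem mis_alg {B P Y : Matrix m m ℝ} (hB : Psd B) (h0 : 0 < nf B) (hP : Pᵀ = P) (hY : Psd Y)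
    {c : ℝ} (hc : 0 ≤ c) (h1 : ∀ v, -(c * bf B v v) ≤ bf P v v)
    (h2 : ∀ v, bf P v v ≤ c * bf B v v) :
    ip Y (P * P) ≤ 2 / nf B ^ 2 * ip Y (P * (B * B) * P) +
      20 * c ^ 2 * nf (rem B) * ip Y B := by
  obtain ⟨a, ha⟩ : ∃ a, a = 1 / nf B := ⟨_, rfl⟩
  obtain ⟨T, hT⟩ : ∃ T, T = 1 - a • B := ⟨_, rfl⟩
  obtain ⟨u, hu⟩ : ∃ u, u = a • B := ⟨_, rfl⟩
  have hTs : Tᵀ = T := by rw [hT, transpose_sub, transpose_one, transpose_smul, hB.1]
  have hus : uᵀ = u := by rw [hu, transpose_smul, hB.1]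
  have hTu : T + u = 1 := by rw [hT, hu, sub_add_cancel]
  have k1 := tr_tp_le hB hP hTs hY hc h1 h2 (μ := nf (rem B))
    (fun y => by rw [hT, ha]; exact top_le hB h0 y)
  -- the convexity of the square
  have hD : Psd ((2 : ℝ) • ((T * P)ᵀ * (T * P)) + (2 : ℝ) • ((u * P)ᵀ * (u * P)) - P * P) := by
    have e : (2 : ℝ) • ((T * P)ᵀ * (T * P)) + (2 : ℝ) • ((u * P)ᵀ * (u * P)) - P * P =
        (T * P - u * P)ᵀ * (T * P - u * P) := by
      have e1 : P * P = (T * P + u * P)ᵀ * (T * P + u * P) := by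
        rw [← add_mul, hTu, one_mul, hP]
      rw [e1, transpose_add, transpose_sub, two_smul, two_smul]
      noncomm_ring
    rw [e]
    refine psd_of_bf ?_ fun v => ?_
    · rw [transpose_mul, transpose_transpose]
    · unfold bf
      rw [← mulVec_mulVec, dotProduct_mulVec v, vecMul_transpose]
      exact dot_self_nonneg _
  have k2 := hY.sum_mul_nonneg hD
  have e2 : ∑ i, ∑ j, Y i j * ((2 : ℝ) • ((T * P)ᵀ * (T * P)) +
      (2 : ℝ) • ((u * P)ᵀ * (u * P)) - P * P) i j =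
      2 * ip Y ((T * P)ᵀ * (T * P)) + 2 * ip Y ((u * P)ᵀ * (u * P)) - ip Y (P * P) := by
    unfold ip
    simp only [Matrix.sub_apply, Matrix.add_apply, Matrix.smul_apply, smul_eq_mul, mul_sub,
      mul_add, Finset.sum_sub_distrib, Finset.sum_add_distrib, Finset.mul_sum]
    congr 1
    congr 1 <;> exact Finset.sum_congr rfl fun i _ => Finset.sum_congr rfl fun j _ => by ring
  rw [e2] at k2
  have e3 : ip Y ((u * P)ᵀ * (u * P)) = 1 / nf B ^ 2 * ip Y (P * (B * B) * P) := by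
    have e4 : (u * P)ᵀ * (u * P) = (a * a) • (P * (B * B) * P) := by
      rw [transpose_mul, hP, hus, hu]
      simp only [Matrix.mul_smul, Matrix.smul_mul, smul_smul, Matrix.mul_assoc]
    rw [e4]
    have e5 : a * a = 1 / nf B ^ 2 := by rw [ha]; ring
    rw [e5]
    unfold ip
    simp only [Matrix.smul_apply, smul_eq_mul, Finset.mul_sum]
    exact Finset.sum_congr rfl fun i _ => Finset.sum_congr rfl fun j _ => by ring
  rw [e3] at k2
  have e6 : 2 / nf B ^ 2 = 2 * (1 / nf B ^ 2) := by ring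
  rw [e6]
  linarith

/-- `|B - B²/|B||` against the rank one defect. -/
theorem nf_rem_le {B : Matrix m m ℝ} (hB : Psd B) (h0 : 0 < nf B) :
    nf (rem B) ≤ √(dfc B) / nf B := by
  obtain ⟨ν, hν⟩ : ∃ ν, ν = nf B := ⟨_, rfl⟩
  rw [← hν] at h0 ⊢
  have hX : Psd (ν • (1 : Matrix m m ℝ) - B) := by
    refine psd_of_bf (by rw [transpose_sub, transpose_smul, transpose_one, hB.1]) fun v => ?_
    have e : bf (ν • (1 : Matrix m m ℝ) - B) v v = ν * (v ⬝ᵥ v) - bf B v v := by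
      unfold bf
      rw [sub_mulVec, dotProduct_sub, smul_mulVec, dotProduct_smul, one_mulVec, smul_eq_mul]
    rw [e, hν]
    linarith [bf_le_nf B v]
  have hY : Psd (B * B * B) := by
    refine psd_of_bf ?_ fun v => ?_
    · rw [transpose_mul, transpose_mul, hB.1, Matrix.mul_assoc]
    · have e : bf (B * B * B) v v = bf B (B *ᵥ v) (B *ᵥ v) := by
        unfold bf
        rw [← mulVec_mulVec, ← mulVec_mulVec, dotProduct_mulVec v B, ← mulVec_transpose, hB.1]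
      rw [e]
      exact psd_bf hB _
  have h1 := hX.sum_mul_nonneg hY
  have e1 : ∑ i, ∑ j, (ν • (1 : Matrix m m ℝ) - B) i j * (B * B * B) i j =
      ν * ip B (B * B) - fr (B * B) := by
    have a1 : ∑ i, ∑ j, (ν • (1 : Matrix m m ℝ) - B) i j * (B * B * B) i j =
        ip (ν • (1 : Matrix m m ℝ) - B) (B * B * B) := rfl
    rw [a1, ip_eq_trace, transpose_sub, transpose_smul, transpose_one, hB.1, sub_mul,
      Matrix.smul_mul, one_mul, trace_sub, trace_smul, smul_eq_mul, ip_eq_trace, hB.1]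
    congr 1
    · rw [Matrix.mul_assoc]
    · rw [← ip_self, ip_eq_trace, transpose_mul, hB.1]
      congr 1
      simp only [Matrix.mul_assoc]
  rw [e1] at h1
  have hν2 : ν ^ 2 = fr B := by rw [hν]; exact nf_sq B
  have e2 : fr (rem B) = fr B - 2 * (1 / ν) * ip B (B * B) + (1 / ν) ^ 2 * fr (B * B) := by
    have a1 : rem B = B - (1 / ν) • (B * B) := by unfold rem; rw [hν]
    rw [a1]
    unfold fr ip
    simp only [Matrix.sub_apply, Matrix.smul_apply, smul_eq_mul, Finset.mul_sum,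
      ← Finset.sum_sub_distrib, ← Finset.sum_add_distrib]
    exact Finset.sum_congr rfl fun i _ => Finset.sum_congr rfl fun j _ => by ring
  have h2 : fr (rem B) ≤ dfc B / ν ^ 2 := by
    rw [e2]
    unfold dfc
    have a2 : (fr B ^ 2 - fr (B * B)) / ν ^ 2 = fr B - fr (B * B) / ν ^ 2 := by
      rw [sub_div, hν2]
      congr 1
      rw [← hν2]
      field_simp
    rw [a2]
    have a3 : fr (B * B) / ν ^ 2 ≤ 1 / ν * ip B (B * B) := by
      rw [div_le_iff₀ (by positivity)]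
      calc fr (B * B) ≤ ν * ip B (B * B) := by linarith
        _ = 1 / ν * ip B (B * B) * ν ^ 2 := by field_simp
    have a4 : (1 / ν) ^ 2 * fr (B * B) = fr (B * B) / ν ^ 2 := by field_simp
    rw [a4]
    linarith
  unfold nf
  refine (Real.sqrt_le_sqrt h2).trans (le_of_eq ?_)
  rw [Real.sqrt_div' _ (by positivity), Real.sqrt_sq h0.le]

end Vale.Agent.P146.H364
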