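import Vale.Agent.P146.H191.F1Sum
import Vale.Agent.P146.H364.Mis

/-!
P146, plan R2, the row Mis in CS letters: the row averages `C_b`, `M_b` of the matrix `C` and of the
response `H_b`, the misalignment `P_b = C_b - β M_b`, and its two sided form bound.
-/

open MeasureTheory ProbabilityTheory Finset Matrix

namespace Vale.Agent.P146.H364

open Vale.Agent.P157.Lv Vale.Agent.P146.H425 Vale.Agent.P146.H325
  Vale.Agent.P146.H712 Vale.Agent.P146.R1 Vale.Agent.P146.R1C Vale.Agent.P146.H706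
  Vale.Agent.P146.R1S Vale.Agent.P146.H191 Vale.Agent.P146.H522
open Vale.Agent.P146.H332

set_option linter.unusedSectionVars false

variable {n : ℕ} {k x : ℝ} (S : CS n k x) (s : ℝ) (a : Fin 4 → ℝ) (b : Fin n)

/-- `C` averaged over the row `b`, without the row and the column `b`. -/
noncomputable def Cb : MF n := fun w i j =>
  if i = b ∨ j = b then 0 else Av (lf (row b)) (fun w => S.A s (H712.lp a w) i j) w

/-- The response `H_b` averaged over its row. -/
noncomputable def Mb : MF n := fun w i j => Av (lf (row b)) (fun w => S.H s b (H712.lp a w) i j) w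

/-- The misalignment of the row `b`. -/
noncomputable def Pb (β : ℝ) : MF n := fun w i j => Cb S s a b w i j - β * Mb S s a b w i j

variable {S s a b}

lemma eg_Al (i j : Fin n) : EG fun w : K4 (Pair n) → ℝ => S.A s (H712.lp a w) i j :=
  eg_lp a (S.eg_A s i j)

lemma eg_Hl (hs : 0 < s) (i j : Fin n) : EG fun w : K4 (Pair n) → ℝ => S.H s b (H712.lp a w) i j :=
  eg_lp a (S.eg_H hs b i j)

lemma eg_Cb (i j : Fin n) : EG fun w => Cb S s a b w i j := by
  unfold Cb
  by_cases h : i = b ∨ j = b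
  · simp only [if_pos h]
    exact EG.const 0
  · simp only [if_neg h]
    exact eg_Av _ (eg_Al i j)

lemma eg_Mb (hs : 0 < s) (i j : Fin n) : EG fun w => Mb S s a b w i j := eg_Av _ (eg_Hl hs i j)

lemma ind_Cb (i j : Fin n) : Ind (lf (row b)) fun w => Cb S s a b w i j := by
  unfold Cb
  by_cases h : i = b ∨ j = b
  · simp only [if_pos h]
    exact fun _ _ => rfl
  · simp only [if_neg h]
    exact ind_Av _ _

lemma ind_Mb (i j : Fin n) : Ind (lf (row b)) fun w => Mb S s a b w i j := ind_Av _ _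

lemma Cb_comm (w : K4 (Pair n) → ℝ) (i j : Fin n) : Cb S s a b w i j = Cb S s a b w j i := by
  unfold Cb
  by_cases h : i = b ∨ j = b
  · rw [if_pos h, if_pos h.symm]
  · rw [if_neg h, if_neg fun h' => h h'.symm]
    exact Av_congr (fun w => S.A_comm s _ i j) w

lemma Mb_comm (w : K4 (Pair n) → ℝ) (i j : Fin n) : Mb S s a b w i j = Mb S s a b w j i :=
  Av_congr (fun _ => S.H_comm s b _ i j) w

/-- `C_b` does not see the row `b`. -/
lemma frz_Cb : Frz b (Cb S s a b) where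
  eg := eg_Cb
  fr i l := Fr.of_ind (ind_Cb i l)
  sy := Cb_comm

/-- `M_b` does not see the row `b`. -/
lemma frz_Mb (hs : 0 < s) : Frz b (Mb S s a b) where
  eg := eg_Mb hs
  fr i l := Fr.of_ind (ind_Mb i l)
  sy := Mb_comm

lemma Cb_col (w : K4 (Pair n) → ℝ) (i : Fin n) : Cb S s a b w i b = 0 := if_pos (Or.inr rfl)

lemma Cb_row (w : K4 (Pair n) → ℝ) (i : Fin n) : Cb S s a b w b i = 0 := if_pos (Or.inl rfl)

lemma Mb_col (hs : 0 < s) (w : K4 (Pair n) → ℝ) (i : Fin n) : Mb S s a b w i b = 0 := by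
  unfold Mb
  rw [Av_congr (G := fun _ => 0) fun w => S.H_row hs b _ i]
  exact Av_const _ _

lemma Cb_T (w : K4 (Pair n) → ℝ) : (Matrix.of (Cb S s a b w))ᵀ = Matrix.of (Cb S s a b w) := by
  ext i j
  exact Cb_comm w j i

lemma Mb_T (w : K4 (Pair n) → ℝ) : (Matrix.of (Mb S s a b w))ᵀ = Matrix.of (Mb S s a b w) := by
  ext i j
  exact Mb_comm w j i

/-- the diagonal of `C_b` is one -/
lemma Cb_self {i : Fin n} (hi : i ≠ b) (w : K4 (Pair n) → ℝ) : Cb S s a b w i i = 1 := by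
  unfold Cb
  rw [if_neg (by tauto), Av_congr (G := fun _ => 1) fun w => S.A_self s _ i]
  exact Av_const _ _

/-- the vector without the coordinate `b` -/
def vz (b : Fin n) (v : Fin n → ℝ) : Fin n → ℝ := fun i => if i = b then 0 else v i

/-- the form of `C_b` -/
lemma bf_Cb (w : K4 (Pair n) → ℝ) (v : Fin n → ℝ) : bf (Matrix.of (Cb S s a b w)) v v =
    Av (lf (row b)) (fun w => qf (fun i j => S.A s (H712.lp a w) i j) (vz b v)) w := by
  unfold qf
  rw [bf_eq, Av_sum _ fun i _ => EG.sum _ fun j _ => ((eg_Al i j).const_mul _).mul (EG.const _)]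
  refine Finset.sum_congr rfl fun i _ => ?_
  rw [Av_sum _ fun j _ => ((eg_Al i j).const_mul _).mul (EG.const _)]
  refine Finset.sum_congr rfl fun j _ => ?_
  have e : (fun w : K4 (Pair n) → ℝ => vz b v i * S.A s (H712.lp a w) i j * vz b v j) =
      fun w => (vz b v i * vz b v j) * S.A s (H712.lp a w) i j := by
    funext w; ring
  rw [e, Av_const_mul, Matrix.of_apply]
  unfold Cb vz
  by_cases hi : i = b
  · rw [if_pos (Or.inl hi), if_pos hi]; ring
  · by_cases hj : j = b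
    · rw [if_pos (Or.inr hj), if_pos hj]; ring
    · rw [if_neg (by tauto), if_neg hi, if_neg hj]; ring

/-- the form of `M_b` -/
lemma bf_Mb (hs : 0 < s) (w : K4 (Pair n) → ℝ) (v : Fin n → ℝ) :
    bf (Matrix.of (Mb S s a b w)) v v =
      Av (lf (row b)) (fun w => qf (fun i j => S.H s b (H712.lp a w) i j) v) w := by
  unfold qf
  rw [bf_eq, Av_sum _ fun i _ => EG.sum _ fun j _ => ((eg_Hl hs i j).const_mul _).mul (EG.const _)]
  refine Finset.sum_congr rfl fun i _ => ?_
  rw [Av_sum _ fun j _ => ((eg_Hl hs i j).const_mul _).mul (EG.const _)]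
  refine Finset.sum_congr rfl fun j _ => ?_
  have e : (fun w : K4 (Pair n) → ℝ => v i * S.H s b (H712.lp a w) i j * v j) =
      fun w => (v i * v j) * S.H s b (H712.lp a w) i j := by
    funext w; ring
  rw [e, Av_const_mul, Matrix.of_apply]
  unfold Mb
  ring

/-- the coordinate `b` does not matter for `H_b` -/
lemma qf_H_vz (hs : 0 < s) (z : Pair n → ℝ) (v : Fin n → ℝ) :
    qf (fun i j => S.H s b z i j) (vz b v) = qf (fun i j => S.H s b z i j) v := by
  unfold qf
  refine Finset.sum_congr rfl fun i _ => Finset.sum_congr rfl fun j _ => ?_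
  show vz b v i * S.H s b z i j * vz b v j = v i * S.H s b z i j * v j
  unfold vz
  by_cases hi : i = b
  · rw [hi, S.H_comm s b z b j, S.H_row hs]; ring
  · by_cases hj : j = b
    · rw [hj, S.H_row hs]; ring
    · rw [if_neg hi, if_neg hj]

lemma eg_qfA (v : Fin n → ℝ) : EG fun w : K4 (Pair n) → ℝ =>
    qf (fun i j => S.A s (H712.lp a w) i j) v :=
  EG.sum _ fun i _ => EG.sum _ fun j _ => ((eg_Al i j).const_mul _).mul (EG.const _)

lemma eg_qfH (hs : 0 < s) (v : Fin n → ℝ) : EG fun w : K4 (Pair n) → ℝ =>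
    qf (fun i j => S.H s b (H712.lp a w) i j) v :=
  EG.sum _ fun i _ => EG.sum _ fun j _ => ((eg_Hl hs i j).const_mul _).mul (EG.const _)

/-- `0 ≤ M_b` -/
lemma Mb_nonneg (hs : 0 < s) (w : K4 (Pair n) → ℝ) (v : Fin n → ℝ) :
    0 ≤ bf (Matrix.of (Mb S s a b w)) v v := by
  rw [bf_Mb hs]
  exact Av_nonneg (fun w => S.H_nonneg hs b _ v) w

/-- `M_b ≤ C_b` -/
lemma Mb_le (hs : 0 < s) (w : K4 (Pair n) → ℝ) (v : Fin n → ℝ) :
    bf (Matrix.of (Mb S s a b w)) v v ≤ bf (Matrix.of (Cb S s a b w)) v v := by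
  rw [bf_Mb hs, bf_Cb]
  refine Av_mono (eg_qfH hs v) (eg_qfA _) (fun w => ?_) w
  rw [← qf_H_vz hs]
  exact S.H_le hs b _ _

/-- `C_b` is positive semidefinite -/
lemma psd_Cb (hs : 0 < s) (w : K4 (Pair n) → ℝ) : Psd (Matrix.of (Cb S s a b w)) :=
  psd_of_bf (Cb_T w) fun v => (Mb_nonneg hs w v).trans (Mb_le hs w v)

/-- `M_b` is positive semidefinite -/
lemma psd_Mb (hs : 0 < s) (w : K4 (Pair n) → ℝ) : Psd (Matrix.of (Mb S s a b w)) :=
  psd_of_bf (Mb_T w) fun v => Mb_nonneg hs w v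

variable {β : ℝ}

lemma Pb_comm (w : K4 (Pair n) → ℝ) (i j : Fin n) : Pb S s a b β w i j = Pb S s a b β w j i := by
  unfold Pb
  rw [Cb_comm, Mb_comm]

lemma Pb_T (w : K4 (Pair n) → ℝ) :
    (Matrix.of (Pb S s a b β w))ᵀ = Matrix.of (Pb S s a b β w) := by
  ext i j
  exact Pb_comm w j i

lemma frz_Pb (hs : 0 < s) : Frz b (Pb S s a b β) where
  eg i j := (eg_Cb i j).sub ((eg_Mb hs i j).const_mul _)
  fr i l := Fr.of_ind fun z w => by
    have h1 : Cb S s a b (sw (lf (row b)) z w) i l = Cb S s a b z i l := ind_Cb i l z w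
    have h2 : Mb S s a b (sw (lf (row b)) z w) i l = Mb S s a b z i l := ind_Mb i l z w
    unfold Pb
    rw [h1, h2]
  sy := Pb_comm

lemma Pb_col (hs : 0 < s) (w : K4 (Pair n) → ℝ) (i : Fin n) : Pb S s a b β w i b = 0 := by
  unfold Pb
  rw [Cb_col, Mb_col hs]
  ring

lemma Pb_mat (w : K4 (Pair n) → ℝ) : Matrix.of (Pb S s a b β w) =
    Matrix.of (Cb S s a b w) - β • Matrix.of (Mb S s a b w) := by
  ext i j
  rfl

lemma bf_Pb (w : K4 (Pair n) → ℝ) (v : Fin n → ℝ) : bf (Matrix.of (Pb S s a b β w)) v v =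
    bf (Matrix.of (Cb S s a b w)) v v - β * bf (Matrix.of (Mb S s a b w)) v v := by
  rw [Pb_mat]
  unfold bf
  rw [sub_mulVec, dotProduct_sub, smul_mulVec, dotProduct_smul, smul_eq_mul]

/-- `P_b ≤ C_b` -/
lemma Pb_le (hs : 0 < s) (hβ : 0 ≤ β) (w : K4 (Pair n) → ℝ) (v : Fin n → ℝ) :
    bf (Matrix.of (Pb S s a b β w)) v v ≤ bf (Matrix.of (Cb S s a b w)) v v := by
  rw [bf_Pb]
  have := mul_nonneg hβ (Mb_nonneg (S := S) (a := a) (b := b) hs w v)
  linarith

/-- `-(β - 1) C_b ≤ P_b` -/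
lemma Pb_ge (hs : 0 < s) (hβ : 0 ≤ β) (w : K4 (Pair n) → ℝ) (v : Fin n → ℝ) :
    -((β - 1) * bf (Matrix.of (Cb S s a b w)) v v) ≤ bf (Matrix.of (Pb S s a b β w)) v v := by
  rw [bf_Pb]
  have := mul_le_mul_of_nonneg_left (Mb_le (S := S) (a := a) (b := b) hs w v) hβ
  linarith

/-- **The row Mis at one row.** `tr (Y P_b²)` is the `C_b`-column of `P_b` up to the rank one defect
of `C_b`. -/
theorem mis_row (hs : 0 < s) (hβ : 1 ≤ β) (w : K4 (Pair n) → ℝ)
    (h0 : 0 < nf (Matrix.of (Cb S s a b w))) {Y : Matrix (Fin n) (Fin n) ℝ} (hY : Psd Y) :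
    ip Y (Matrix.of (Pb S s a b β w) * Matrix.of (Pb S s a b β w)) ≤
      2 / nf (Matrix.of (Cb S s a b w)) ^ 2 * ip Y (Matrix.of (Pb S s a b β w) *
        (Matrix.of (Cb S s a b w) * Matrix.of (Cb S s a b w)) * Matrix.of (Pb S s a b β w)) +
      20 * β ^ 2 * (√(dfc (Matrix.of (Cb S s a b w))) / nf (Matrix.of (Cb S s a b w))) *
        ip Y (Matrix.of (Cb S s a b w)) := by
  have hB := psd_Cb (S := S) (a := a) (b := b) hs w
  have hβ0 : 0 ≤ β := by linarith
  have hb := psd_bf hB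
  have h := mis_alg (c := β) hB h0 (Pb_T w) hY hβ0
    (fun v => by
      have h1 := Pb_ge (S := S) (a := a) (b := b) hs hβ0 w v
      have h2 := hb v
      linarith)
    (fun v => (Pb_le (S := S) (a := a) (b := b) hs hβ0 w v).trans (by nlinarith [hb v]))
  refine h.trans (add_le_add le_rfl ?_)
  have h3 := nf_rem_le hB h0
  have h4 : 0 ≤ ip Y (Matrix.of (Cb S s a b w)) := hY.sum_mul_nonneg hB
  exact mul_le_mul_of_nonneg_right (mul_le_mul_of_nonneg_left h3 (by positivity)) h4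

end Vale.Agent.P146.H364
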