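import Vale.Agent.P146.H364.Mhs
import Vale.Agent.P146.H712.AvPq

/-!
P146, plan R2, the row Mis: the Bessel inequality of a row. The mean of the gradient in the row is
bounded by the second moment, in every weight which does not see the row.
-/

open MeasureTheory ProbabilityTheory Finset

namespace Vale.Agent.P146.H364

open Vale.Agent.P157.Lv Vale.Agent.P146.H425 Vale.Agent.P146.H325 Vale.Agent.P146.H332
  Vale.Agent.P146.H712 Vale.Agent.P146.R1 Vale.Agent.P146.R1C Vale.Agent.P146.H706
  Vale.Agent.P146.R1S Vale.Agent.P146.H191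

set_option linter.unusedSectionVars false

section gen

variable {κ : Type} [Fintype κ] [DecidableEq κ] {R : Finset κ} {s : ℝ}

/-- integration by parts for the average over `R` at the variance `s` -/
lemma AvP_ibp (hs : 0 ≤ s) {f f' : (κ → ℝ) → ℝ} {e : κ} (he : e ∈ R) (hd : PD e f f')
    (hf : EG f) (hf' : EG f') (z : κ → ℝ) :
    AvP s R (fun u => u e * f u) z = s * AvP s R f' z := by
  have key := (pd_avp he hd s z).stein (eg_AvP_in hf s R z) ((eg_AvP_in hf' s R z).const_mul _)
  have e1 : ∀ w : κ → ℝ, (H712.sw R z (√s • w)) e = √s * w e := fun w => by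
    unfold H712.sw
    simp [he]
  unfold AvP
  calc ∫ w, (H712.sw R z (√s • w)) e * f (H712.sw R z (√s • w)) ∂(gI κ) =
      ∫ w, √s * (w e * f (H712.sw R z (√s • w))) ∂(gI κ) :=
        integral_congr_ae (Filter.Eventually.of_forall fun w => by simp only [e1]; ring)
    _ = √s * ∫ w, √s * f' (H712.sw R z (√s • w)) ∂(gI κ) := by
        rw [integral_const_mul, key]
    _ = s * ∫ w, f' (H712.sw R z (√s • w)) ∂(gI κ) := by
        rw [integral_const_mul, ← mul_assoc, Real.mul_self_sqrt hs]

/-- **Bessel's inequality of the linear part.** -/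
theorem AvP_bessel (hs : 0 ≤ s) {g : (κ → ℝ) → ℝ} {g' : κ → (κ → ℝ) → ℝ} (hg : EG g)
    (hd : ∀ e ∈ R, PD e g (g' e)) (hg' : ∀ e ∈ R, EG (g' e)) (z : κ → ℝ) :
    s * ∑ e ∈ R, AvP s R (g' e) z ^ 2 ≤ AvP s R (fun u => g u ^ 2) z := by
  obtain ⟨c, hc⟩ : ∃ c : κ → ℝ, c = fun e => AvP s R (g' e) z := ⟨_, rfl⟩
  obtain ⟨h, hh⟩ : ∃ h : (κ → ℝ) → ℝ, h = fun u => ∑ e ∈ R, c e * u e := ⟨_, rfl⟩
  have eh : EG h := by rw [hh]; exact EG.sum _ fun e _ => (EG.coord e).const_mul _
  have dh : ∀ e ∈ R, PD e h (fun _ => c e) := by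
    intro e he
    rw [hh]
    refine (PD.sum R fun e' _ => (PD.coord e').const_mul (c e')).congr fun u => ?_
    simp [Finset.sum_ite_eq', he]
  have a1 : AvP s R (fun u => h u * g u) z = s * ∑ e ∈ R, c e ^ 2 := by
    have e1 : (fun u => h u * g u) = fun u => ∑ e ∈ R, c e * (u e * g u) := by
      funext u
      rw [hh, Finset.sum_mul]
      exact Finset.sum_congr rfl fun e _ => by ring
    rw [e1, AvP_sum R fun e _ => ((EG.coord e).mul hg).const_mul _, Finset.mul_sum]
    refine Finset.sum_congr rfl fun e he => ?_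
    rw [AvP_const_mul, AvP_ibp hs he (hd e he) hg (hg' e he), hc]
    ring
  have a2 : AvP s R (fun u => h u * h u) z = s * ∑ e ∈ R, c e ^ 2 := by
    have e1 : (fun u => h u * h u) = fun u => ∑ e ∈ R, c e * (u e * h u) := by
      funext u
      nth_rewrite 1 [hh]
      rw [Finset.sum_mul]
      exact Finset.sum_congr rfl fun e _ => by ring
    rw [e1, AvP_sum R fun e _ => ((EG.coord e).mul eh).const_mul _, Finset.mul_sum]
    refine Finset.sum_congr rfl fun e he => ?_
    rw [AvP_const_mul, AvP_ibp hs he (dh e he) eh (EG.const _), AvP_const]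
    ring
  have a3 : 0 ≤ AvP s R (fun u => (g u - h u) ^ 2) z := AvP_nonneg (fun u => sq_nonneg _) z
  have a4 : (fun u => (g u - h u) ^ 2) =
      fun u => (g u ^ 2 + (-2) * (h u * g u)) + h u * h u := by
    funext u; ring
  rw [a4, AvP_add ((hg.pow 2).add ((eh.mul hg).const_mul _)) (eh.mul eh),
    AvP_add (hg.pow 2) ((eh.mul hg).const_mul _), AvP_const_mul, a1, a2] at a3
  have a5 : ∑ e ∈ R, AvP s R (g' e) z ^ 2 = ∑ e ∈ R, c e ^ 2 := by rw [hc]
  rw [a5]
  linarith

end gen

section row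

variable {n : ℕ} {k x : ℝ} {S : CS n k x} {s : ℝ} {b : Fin n}

/-- **Bessel's inequality for the column of `C`**: the mean response of the row `b` in the form
`P'P`. -/
theorem bessel_row (hs : 0 < s) (P : Matrix (Fin n) (Fin n) ℝ) (z : Pair n → ℝ) :
    s * k ^ 2 * ∑ i, ∑ j, (∑ l, P i l * AvP s (row b) (fun u => S.H s b u l j) z) ^ 2 ≤
      AvP s (row b) (fun u => ∑ i, (∑ l, P i l * Uz S s b l u) ^ 2) z := by
  have eH := fun l j => S.eg_H hs b l j
  have eG : ∀ i, EG fun u => ∑ l, P i l * Uz S s b l u := fun i =>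
    EG.sum _ fun l _ => (eg_Uz S s b l).const_mul _
  have pd : ∀ i, ∀ e ∈ row b, PD e (fun u => ∑ l, P i l * Uz S s b l u)
      (fun u => k * ∑ l, P i l * S.H s b u l (oth b e)) := by
    intro i e he
    refine (PD.sum Finset.univ fun l _ => (pd_Uz S hs b l he).const_mul (P i l)).congr fun u => ?_
    rw [Finset.mul_sum]
    exact Finset.sum_congr rfl fun l _ => by ring
  have eg' : ∀ i, ∀ e ∈ row b, EG fun u => k * ∑ l, P i l * S.H s b u l (oth b e) :=
    fun i e _ => (EG.sum _ fun l _ => (eH l _).const_mul _).const_mul _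
  rw [AvP_sum Finset.univ fun i _ => (eG i).pow 2, Finset.mul_sum]
  refine Finset.sum_le_sum fun i _ => ?_
  refine le_trans (le_of_eq ?_) (AvP_bessel hs.le (eG i) (pd i) (eg' i) z)
  have e1 : ∀ e ∈ row b, AvP s (row b) (fun u => k * ∑ l, P i l * S.H s b u l (oth b e)) z ^ 2 =
      (fun j => k ^ 2 * (∑ l, P i l * AvP s (row b) (fun u => S.H s b u l j) z) ^ 2)
        (oth b e) := by
    intro e _
    rw [AvP_const_mul, AvP_sum Finset.univ fun l _ => (eH l _).const_mul _]
    simp only [AvP_const_mul]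
    ring
  rw [Finset.sum_congr rfl e1, sum_row_all b (G := fun j => k ^ 2 *
    (∑ l, P i l * AvP s (row b) (fun u => S.H s b u l j) z) ^ 2) ?_, ← Finset.mul_sum]
  · ring
  · have h2 : ∀ l, AvP s (row b) (fun u => S.H s b u l b) z = 0 := by
      intro l
      have : (fun u => S.H s b u l b) = fun _ => (0 : ℝ) := by
        funext u
        exact S.H_row hs b u l
      rw [this, AvP_const]
    simp only [h2, mul_zero, Finset.sum_const_zero]
    ring

end row

end Vale.Agent.P146.H364
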