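import Vale.Agent.P146.H364.Pb

/-!
P146, plan R2, the row Mis: the Hilbert-Schmidt version. If `-c B ≤ P ≤ c B` as forms then `|P|²` is
the `B`-column of `P` up to the rank one defect of `B`.
-/

open Matrix Vale.Agent.P146.H332 Vale.Agent.P146.H522

namespace Vale.Agent.P146.H364

set_option linter.unusedSectionVars false
set_option linter.unusedDecidableInType false

section alg

variable {m : Type} [Fintype m] [DecidableEq m]

lemma fr_smul (a : ℝ) (M : Matrix m m ℝ) : fr (a • M) = a ^ 2 * fr M := by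
  unfold fr
  simp only [Matrix.smul_apply, smul_eq_mul, Finset.mul_sum]
  exact Finset.sum_congr rfl fun i _ => Finset.sum_congr rfl fun j _ => by ring

lemma fr_T (M : Matrix m m ℝ) : fr Mᵀ = fr M := by
  unfold fr
  rw [Finset.sum_comm]
  rfl

lemma fr_add_le (A B : Matrix m m ℝ) : fr (A + B) ≤ 2 * fr A + 2 * fr B := by
  unfold fr
  simp only [Finset.mul_sum, ← Finset.sum_add_distrib, Matrix.add_apply]
  exact Finset.sum_le_sum fun i _ => Finset.sum_le_sum fun j _ => by
    nlinarith [sq_nonneg (A i j - B i j)]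

/-- `|A B|² ≤ |A|² |B|²` -/
lemma fr_mul_le (A B : Matrix m m ℝ) : fr (A * B) ≤ fr A * fr B := by
  unfold fr
  have e : ∀ i j, (A * B) i j ^ 2 ≤ (∑ l, A i l ^ 2) * ∑ l, B l j ^ 2 := fun i j => by
    rw [Matrix.mul_apply]
    exact Finset.sum_mul_sq_le_sq_mul_sq _ _ _
  refine (Finset.sum_le_sum fun i _ => Finset.sum_le_sum fun j _ => e i j).trans (le_of_eq ?_)
  rw [Finset.sum_comm (s := Finset.univ) (t := Finset.univ) (f := fun l j => B l j ^ 2),
    Finset.sum_mul_sum]

/-- The Frobenius norm of a form between `-c B` and `c B`. -/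
theorem fr_le_of_form {B P : Matrix m m ℝ} (hB : Bᵀ = B) (hP : Pᵀ = P) {c : ℝ}
    (h1 : ∀ v, -(c * bf B v v) ≤ bf P v v) (h2 : ∀ v, bf P v v ≤ c * bf B v v) :
    fr P ≤ c ^ 2 * fr B := by
  have e1 : Psd (c • B - P) := by
    refine psd_of_bf (by rw [transpose_sub, transpose_smul, hB, hP]) fun v => ?_
    have : bf (c • B - P) v v = c * bf B v v - bf P v v := by
      unfold bf
      rw [sub_mulVec, dotProduct_sub, smul_mulVec, dotProduct_smul, smul_eq_mul]
    rw [this]
    linarith [h2 v]
  have e2 : Psd (c • B + P) := by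
    refine psd_of_bf (by rw [transpose_add, transpose_smul, hB, hP]) fun v => ?_
    have : bf (c • B + P) v v = c * bf B v v + bf P v v := by
      unfold bf
      rw [add_mulVec, dotProduct_add, smul_mulVec, dotProduct_smul, smul_eq_mul]
    rw [this]
    linarith [h1 v]
  have h := ip_nonneg e1 e2
  have e : ip (c • B - P) (c • B + P) = c ^ 2 * fr B - fr P := by
    unfold ip fr
    rw [Finset.mul_sum, ← Finset.sum_sub_distrib]
    refine Finset.sum_congr rfl fun i _ => ?_
    rw [Finset.mul_sum, ← Finset.sum_sub_distrib]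
    refine Finset.sum_congr rfl fun j _ => ?_
    simp only [Matrix.sub_apply, Matrix.add_apply, Matrix.smul_apply, smul_eq_mul]
    ring
  rw [e] at h
  linarith

/-- The congruence of a form bound. -/
lemma bf_conj (M T : Matrix m m ℝ) (hT : Tᵀ = T) (v : m → ℝ) :
    bf (T * M * T) v v = bf M (T *ᵥ v) (T *ᵥ v) := by
  unfold bf
  rw [← mulVec_mulVec, ← mulVec_mulVec, dotProduct_mulVec v T, ← mulVec_transpose, hT]

/-- **The Hilbert-Schmidt form of the row Mis**: if `-c B ≤ P ≤ c B` then
`|P|² ≤ 6 |P B|²/|B|² + 4 c² dfc B/|B|²`. -/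
theorem mis_hs {B P : Matrix m m ℝ} (hB : Psd B) (h0 : 0 < fr B) (hP : Pᵀ = P)
    {c : ℝ} (h1 : ∀ v, -(c * bf B v v) ≤ bf P v v) (h2 : ∀ v, bf P v v ≤ c * bf B v v) :
    fr P ≤ 6 * (fr (P * B) / fr B) + 4 * c ^ 2 * (dfc B / fr B) := by
  obtain ⟨a, ha⟩ : ∃ a, a = 1 / nf B := ⟨_, rfl⟩
  have hnf : 0 < nf B := Real.sqrt_pos.2 h0
  have ha2 : a ^ 2 = 1 / fr B := by rw [ha, ← nf_sq B]; ring
  obtain ⟨u, hu⟩ : ∃ u, u = a • B := ⟨_, rfl⟩
  obtain ⟨T, hT⟩ : ∃ T, T = 1 - u * u := ⟨_, rfl⟩
  have hus : uᵀ = u := by rw [hu, transpose_smul, hB.1]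
  have hTs : Tᵀ = T := by rw [hT, transpose_sub, transpose_one, transpose_mul, hus]
  have hTu : u * u + T = 1 := by rw [hT]; abel
  have hfu : fr u = 1 := by
    rw [hu, fr_smul, ha2]
    field_simp
  have hPu : fr (P * u) = fr (P * B) / fr B := by
    rw [hu, Matrix.mul_smul, fr_smul, ha2]
    ring
  have hPuu : fr (P * (u * u)) ≤ fr (P * u) := by
    rw [← Matrix.mul_assoc]
    refine (fr_mul_le _ _).trans (le_of_eq ?_)
    rw [hfu, mul_one]
  have huuP : fr (u * u * P) = fr (P * (u * u)) := by
    rw [← fr_T (P * (u * u)), transpose_mul, transpose_mul, hus, hP]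
  -- `|T| ≤ 1` is only used through the two following facts
  have hTle : ∀ M : Matrix m m ℝ, fr (M * T) ≤ fr M := by
    intro M
    -- `T = 1 - u²` with `0 ≤ u² ≤ 1`
    have hU : Psd (u * u) := by
      refine psd_of_bf (by rw [transpose_mul, hus]) fun v => ?_
      unfold bf
      rw [← mulVec_mulVec, dotProduct_mulVec v u, ← mulVec_transpose, hus]
      exact dot_self_nonneg _
    have hV : Psd T := by
      refine psd_of_bf hTs fun v => ?_
      have e1 : bf T v v = v ⬝ᵥ v - bf (u * u) v v := by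
        rw [hT]
        unfold bf
        rw [sub_mulVec, dotProduct_sub, one_mulVec]
      rw [e1]
      have e2 := bf_le_nf (u * u) v
      have e3 : nf (u * u) ≤ 1 := by
        unfold nf
        rw [Real.sqrt_le_one]
        refine (fr_mul_le u u).trans (le_of_eq ?_)
        rw [hfu, mul_one]
      have e4 := dot_self_nonneg v
      nlinarith
    have hUV : Psd (u * T * u) := by
      refine psd_of_bf (by simp only [transpose_mul, hus, hTs, Matrix.mul_assoc]) fun v => ?_
      rw [bf_conj T u hus]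
      exact psd_bf hV _
    have e1 : (M * T) * (M * T)ᵀ + (M * (u * T * u)) * Mᵀ + (M * (u * u)) * Mᵀ = M * Mᵀ := by
      have c1 : u * T * u = T * (u * u) := by
        rw [hT]
        noncomm_ring
      have c2 : T * T + T * (u * u) + u * u = 1 := by
        rw [← mul_add, add_comm T (u * u), hTu, mul_one, add_comm T, hTu]
      rw [transpose_mul, hTs, c1]
      calc M * T * (T * Mᵀ) + M * (T * (u * u)) * Mᵀ + M * (u * u) * Mᵀ =
          M * (T * T + T * (u * u) + u * u) * Mᵀ := by noncomm_ring
        _ = M * Mᵀ := by rw [c2, mul_one]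
    have tr1 : ∀ X : Matrix m m ℝ, fr X = (X * Xᵀ).trace := by
      intro X
      rw [← fr_T X, ← ip_self, ip_eq_trace, transpose_transpose]
    have tr2 : ∀ {Q : Matrix m m ℝ}, Psd Q → 0 ≤ (M * Q * Mᵀ).trace := by
      intro Q hQ
      have : 0 ≤ ip Q (Mᵀ * M) := by
        refine hQ.sum_mul_nonneg (psd_of_bf (by rw [transpose_mul, transpose_transpose]) fun v => ?_)
        unfold bf
        rw [← mulVec_mulVec, dotProduct_mulVec v, vecMul_transpose]
        exact dot_self_nonneg _
      rw [ip_eq_trace, hQ.1] at this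
      rw [Matrix.mul_assoc, trace_mul_comm M, Matrix.mul_assoc]
      exact this
    rw [tr1 (M * T), tr1 M, ← e1, trace_add, trace_add]
    have := tr2 hUV
    have := tr2 hU
    linarith
  -- the transversal block
  have hTBT : fr (T * B * T) ≤ dfc B / fr B := by
    have c0 : T * B = B * T := by
      rw [hT, hu]
      simp only [sub_mul, mul_sub, one_mul, mul_one, Matrix.smul_mul, Matrix.mul_smul,
        Matrix.mul_assoc]
    refine (hTle _).trans ?_
    rw [c0]
    -- `|B T|² ≤ |B|² - |B u|²`
    have c1 : fr (B * T) ≤ fr B - fr (B * u) := by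
      have hV : Psd (u * T * u) := by
        have hV' : Psd T := by
          refine psd_of_bf hTs fun v => ?_
          have e1 : bf T v v = v ⬝ᵥ v - bf (u * u) v v := by
            rw [hT]
            unfold bf
            rw [sub_mulVec, dotProduct_sub, one_mulVec]
          rw [e1]
          have e2 := bf_le_nf (u * u) v
          have e3 : nf (u * u) ≤ 1 := by
            unfold nf
            rw [Real.sqrt_le_one]
            refine (fr_mul_le u u).trans (le_of_eq ?_)
            rw [hfu, mul_one]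
          have e4 := dot_self_nonneg v
          nlinarith
        refine psd_of_bf (by simp only [transpose_mul, hus, hTs, Matrix.mul_assoc]) fun v => ?_
        rw [bf_conj T u hus]
        exact psd_bf hV' _
      have e1 : (B * T) * (B * T)ᵀ + (B * (u * T * u)) * Bᵀ + (B * u) * (B * u)ᵀ = B * Bᵀ := by
        have c1 : u * T * u = T * (u * u) := by
          rw [hT]
          noncomm_ring
        have c2 : T * T + T * (u * u) + u * u = 1 := by
          rw [← mul_add, add_comm T (u * u), hTu, mul_one, add_comm T, hTu]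
        rw [transpose_mul, hTs, transpose_mul, hus, c1]
        calc B * T * (T * Bᵀ) + B * (T * (u * u)) * Bᵀ + B * u * (u * Bᵀ) =
            B * (T * T + T * (u * u) + u * u) * Bᵀ := by noncomm_ring
          _ = B * Bᵀ := by rw [c2, mul_one]
      have tr1 : ∀ X : Matrix m m ℝ, fr X = (X * Xᵀ).trace := by
        intro X
        rw [← fr_T X, ← ip_self, ip_eq_trace, transpose_transpose]
      have tr2 : 0 ≤ (B * (u * T * u) * Bᵀ).trace := by
        have : 0 ≤ ip (u * T * u) (Bᵀ * B) := by
          refine hV.sum_mul_nonneg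
            (psd_of_bf (by rw [transpose_mul, transpose_transpose]) fun v => ?_)
          unfold bf
          rw [← mulVec_mulVec, dotProduct_mulVec v, vecMul_transpose]
          exact dot_self_nonneg _
        rw [ip_eq_trace, hV.1] at this
        rw [Matrix.mul_assoc, trace_mul_comm B, Matrix.mul_assoc]
        exact this
      rw [tr1 (B * T), tr1 B, tr1 (B * u), ← e1, trace_add, trace_add]
      linarith
    refine c1.trans (le_of_eq ?_)
    rw [hu, Matrix.mul_smul, fr_smul, ha2]
    unfold dfc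
    field_simp
  have hTPT : fr (T * P * T) ≤ c ^ 2 * fr (T * B * T) := by
    refine fr_le_of_form (by simp only [transpose_mul, hB.1, hTs, Matrix.mul_assoc])
      (by simp only [transpose_mul, hP, hTs, Matrix.mul_assoc]) (fun v => ?_) fun v => ?_
    · rw [bf_conj B T hTs, bf_conj P T hTs]
      exact h1 _
    · rw [bf_conj B T hTs, bf_conj P T hTs]
      exact h2 _
  have hPT : fr (P * T) ≤ 2 * fr (P * (u * u)) + 2 * fr (T * P * T) := by
    have e : P * T = u * u * P * T + T * P * T := by
      rw [← add_mul, ← add_mul, hTu, one_mul]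
    have h3 := fr_add_le (u * u * P * T) (T * P * T)
    rw [← e] at h3
    have h4 := hTle (u * u * P)
    rw [huuP] at h4
    linarith
  have hP0 : fr P ≤ 2 * fr (P * (u * u)) + 2 * fr (P * T) := by
    have e : P = P * (u * u) + P * T := by rw [← mul_add, hTu, mul_one]
    have h3 := fr_add_le (P * (u * u)) (P * T)
    rw [← e] at h3
    exact h3
  rw [← hPu]
  have h5 := mul_le_mul_of_nonneg_left hTBT (sq_nonneg c)
  nlinarith

end alg

section row

open Vale.Agent.P157.Lv Vale.Agent.P146.R1 Vale.Agent.P146.R1C Vale.Agent.P146.R1S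
  Vale.Agent.P146.H191 Vale.Agent.P146.H712

variable {n : ℕ} {k x : ℝ} {S : CS n k x} {s : ℝ} {a : Fin 4 → ℝ} {b : Fin n} {β : ℝ}

/-- **The row Mis at one row, Hilbert-Schmidt form.** -/
theorem mis_row_hs (hs : 0 < s) (hβ : 1 ≤ β) (w : K4 (Pair n) → ℝ)
    (h0 : 0 < fr (Matrix.of (Cb S s a b w))) :
    fr (Matrix.of (Pb S s a b β w)) ≤
      6 * (fr (Matrix.of (Pb S s a b β w) * Matrix.of (Cb S s a b w)) /
        fr (Matrix.of (Cb S s a b w))) +
      4 * β ^ 2 * (dfc (Matrix.of (Cb S s a b w)) / fr (Matrix.of (Cb S s a b w))) := by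
  have hB := psd_Cb (S := S) (a := a) (b := b) hs w
  have hβ0 : 0 ≤ β := by linarith
  have hb := psd_bf hB
  exact mis_hs (c := β) hB h0 (Pb_T w)
    (fun v => by
      have h1 := Pb_ge (S := S) (a := a) (b := b) hs hβ0 w v
      have h2 := hb v
      linarith)
    (fun v => (Pb_le (S := S) (a := a) (b := b) hs hβ0 w v).trans (by nlinarith [hb v]))

/-- `|P_b| ≤ β |C_b|` -/
theorem Pb_fr_le (hs : 0 < s) (hβ : 1 ≤ β) (w : K4 (Pair n) → ℝ) :
    fr (Matrix.of (Pb S s a b β w)) ≤ β ^ 2 * fr (Matrix.of (Cb S s a b w)) := by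
  have hB := psd_Cb (S := S) (a := a) (b := b) hs w
  have hβ0 : 0 ≤ β := by linarith
  have hb := psd_bf hB
  exact fr_le_of_form hB.1 (Pb_T w)
    (fun v => by
      have h1 := Pb_ge (S := S) (a := a) (b := b) hs hβ0 w v
      have h2 := hb v
      linarith)
    (fun v => (Pb_le (S := S) (a := a) (b := b) hs hβ0 w v).trans (by nlinarith [hb v]))

/-- `|M_b| ≤ |C_b|` -/
theorem Mb_fr_le (hs : 0 < s) (w : K4 (Pair n) → ℝ) :
    fr (Matrix.of (Mb S s a b w)) ≤ fr (Matrix.of (Cb S s a b w)) := by
  have h := fr_le_of_form (c := 1) (psd_Cb (S := S) (a := a) (b := b) hs w).1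
    (Mb_T (S := S) (s := s) (a := a) (b := b) w)
    (fun v => by
      have h1 := Mb_nonneg (S := S) (a := a) (b := b) hs w v
      have h2 := psd_bf (psd_Cb (S := S) (a := a) (b := b) hs w) v
      linarith)
    (fun v => by
      have h1 := Mb_le (S := S) (a := a) (b := b) hs w v
      linarith)
  linarith

end row

end Vale.Agent.P146.H364
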